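import Vale.Agent.P297A41.Rows
import Vale.Agent.P297L93.Mor1

/-!
# The complex points of the projective space
-/

open CategoryTheory AlgebraicGeometry MvPolynomial

namespace Vale.Agent.P297A

open Vale.Agent.P009.AV (PP)
open Vale.Agent.P297M (Pj str IsPoint)
open Vale.Agent.P297G93

attribute [local instance] MvPolynomial.gradedAlgebra

theorem mem_basicOpen_const76 {T : Scheme.{0}} (c : ℂ →+* Γ(T, ⊤)) (x : T) (a : ℂ) :
    x ∈ T.basicOpen (c a) ↔ a ≠ 0 := by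
  by_cases h : a = 0
  · rw [h, map_zero, Scheme.basicOpen_zero]
    exact ⟨fun h' => absurd h' (Set.notMem_empty x), fun h' => absurd rfl h'⟩
  · rw [T.basicOpen_of_isUnit ((isUnit_iff_ne_zero.2 h).map c)]
    exact ⟨fun _ => h, fun _ => trivial⟩

theorem pts : PTS := by
  intro ι _
  refine ⟨fun P => ?_, fun y P P' h h' => ?_, fun y y' P h h' => ?_⟩
  · obtain ⟨j, hj⟩ := Function.ne_iff.1 P.rep_nonzero
    have hj' : P.rep j ≠ 0 := hj
    obtain ⟨c, hc⟩ : ∃ c, c = W.cG (𝟙 (Spec (CommRingCat.of ℂ))) := ⟨_, rfl⟩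
    have hu : c ((P.rep j)⁻¹ * P.rep j) = 1 := by rw [inv_mul_cancel₀ hj', map_one]
    refine ⟨Over.homMk (W.toP (𝟙 _) j (fun i => c ((P.rep j)⁻¹ * P.rep i)) hu)
      (W.toP_str _ j _ hu), fun d F hF => ?_⟩
    have h1 := W.toP_pre (𝟙 (Spec (CommRingCat.of ℂ))) j (fun i => c ((P.rep j)⁻¹ * P.rep i)) hu hF
    have h2 := map_eval₂Hom (RingHom.id ℂ) (fun i => (P.rep j)⁻¹ * P.rep i) c F
    rw [RingHom.comp_id] at h2
    rw [← hc, ← h2] at h1
    refine Iff.trans (b := IsLocalRing.closedPoint ℂ ∈ (W.toP (𝟙 (Spec (CommRingCat.of ℂ))) j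
      (fun i => c ((P.rep j)⁻¹ * P.rep i)) hu ⁻¹ᵁ Proj.basicOpen (W.gr ι) F)) Iff.rfl ?_
    rw [h1]
    exact (mem_basicOpen_const76 c _ _).trans (W.eval_mul_ne hF P.rep (inv_ne_zero hj'))
  · obtain ⟨j, hj⟩ := Function.ne_iff.1 P.rep_nonzero
    have hj' : P.rep j ≠ 0 := hj
    have h1 : P'.rep j ≠ 0 := by
      have h2 := (h' 1 (X j) (W.X_mem_gr j)).1 ((h 1 (X j) (W.X_mem_gr j)).2 (by rwa [eval_X]))
      rwa [eval_X] at h2
    rw [← P.mk_rep, ← P'.mk_rep, Projectivization.mk_eq_mk_iff']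
    refine ⟨P.rep j / P'.rep j, funext fun i => ?_⟩
    have h3 : P.rep j • X i - P.rep i • X j ∈ W.gr ι 1 :=
      sub_mem (Submodule.smul_mem _ _ (W.X_mem_gr i)) (Submodule.smul_mem _ _ (W.X_mem_gr j))
    have h4 : eval P'.rep (P.rep j • X i - P.rep i • X j) = 0 := by
      by_contra h5
      refine (h 1 _ h3).1 ((h' 1 _ h3).2 h5) ?_
      rw [map_sub, smul_eval, smul_eval, eval_X, eval_X, mul_comm, sub_self]
    rw [map_sub, smul_eval, smul_eval, eval_X, eval_X, sub_eq_zero] at h4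
    rw [Pi.smul_apply, smul_eq_mul, div_mul_eq_mul_div, h4, mul_div_cancel_right₀ _ h1]
  · refine ProjectiveSpectrum.ext (HomogeneousIdeal.ext' fun d F hF => ?_)
    exact not_iff_not.1 ((h d F hF).trans (h' d F hF).symm)

end Vale.Agent.P297A
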